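import Vale.Agent.P114.Defs

open MeasureTheory Filter Topology

noncomputable section

namespace Vale.Agent.P114

variable {Λ : Type*}

/-- There are no exact overlaps: different words of the same length have different composed
maps. -/
def NoExactOverlaps (r t : Λ → ℝ) : Prop :=
  ∀ (n : ℕ) (u v : Fin n → Λ), wordMap r t (List.ofFn u) = wordMap r t (List.ofFn v) → u = v

/-- `K` is the self-similar set (attractor) of `(r, t)`: nonempty, compact and
`K = ⋃ φᵢ(K)`. -/
structure IsAttractor (r t : Λ → ℝ) (K : Set ℝ) : Prop where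
  nonempty : K.Nonempty
  compact : IsCompact K
  eq : K = ⋃ i, simMap r t i '' K

/-- The local dimension of `μ` at `x` exists and equals `d`:
`log μ[x - ρ, x + ρ] / log ρ → d` as `ρ → 0+`. -/
def HasLocalDim (μ : Measure ℝ) (x d : ℝ) : Prop :=
  Tendsto (fun ρ => Real.log (μ.real (Metric.closedBall x ρ)) / Real.log ρ) (𝓝[>] 0) (𝓝 d)

end Vale.Agent.P114
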