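import Vale.Agent.P114.H408.Upper
import Vale.Agent.P114.H408.Defs
import Mathlib.Probability.ProductMeasure

/-!
Existence of self-similar measures, and the dimension of self-similar sets without exact
overlaps.
-/

open scoped Classical ENNReal NNReal Topology

open MeasureTheory Filter

noncomputable section

namespace Vale.Agent.P114.LD

/-- First letter followed by the rest. -/
def scons {Λ : Type} (x : Λ × (ℕ → Λ)) : ℕ → Λ := fun n => Nat.casesOn n x.1 x.2

@[simp] lemma scons_zero {Λ : Type} (x : Λ × (ℕ → Λ)) : scons x 0 = x.1 := rfl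

@[simp] lemma scons_succ {Λ : Type} (x : Λ × (ℕ → Λ)) (n : ℕ) : scons x (n + 1) = x.2 n := rfl

/-- The coding map. -/
def code {Λ : Type} (r t : Λ → ℝ) (ω : ℕ → Λ) : ℝ :=
  ∑' n, (∏ k ∈ Finset.range n, r (ω k)) * t (ω n)

section
variable {Λ : Type} [Fintype Λ] [Nonempty Λ] (r t : Λ → ℝ)

lemma exists_bounds (hr1 : ∀ i, |r i| < 1) :
    ∃ ρ T : ℝ, 0 ≤ ρ ∧ ρ < 1 ∧ 0 ≤ T ∧ (∀ i, |r i| ≤ ρ) ∧ ∀ i, |t i| ≤ T := by
  obtain ⟨i0, hi0⟩ := Finite.exists_max fun i => |r i|
  obtain ⟨i1, hi1⟩ := Finite.exists_max fun i => |t i|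
  exact ⟨|r i0|, |t i1|, abs_nonneg _, hr1 i0, abs_nonneg _, hi0, hi1⟩

omit [Fintype Λ] [Nonempty Λ] in
lemma abs_prod_le (ρ : ℝ) (h : ∀ i, |r i| ≤ ρ) (ω : ℕ → Λ) (n : ℕ) :
    |∏ k ∈ Finset.range n, r (ω k)| ≤ ρ ^ n := by
  rw [Finset.abs_prod]
  calc ∏ k ∈ Finset.range n, |r (ω k)| ≤ ∏ _k ∈ Finset.range n, ρ :=
        Finset.prod_le_prod (fun _ _ => abs_nonneg _) fun k _ => h _
    _ = ρ ^ n := by rw [Finset.prod_const, Finset.card_range]

lemma code_summable (hr1 : ∀ i, |r i| < 1) (ω : ℕ → Λ) :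
    Summable fun n => (∏ k ∈ Finset.range n, r (ω k)) * t (ω n) := by
  obtain ⟨ρ, T, h0, h1, hT, hr, ht⟩ := exists_bounds r t hr1
  refine Summable.of_norm_bounded (g := fun n => ρ ^ n * T)
    ((summable_geometric_of_lt_one h0 h1).mul_right T) fun n => ?_
  rw [Real.norm_eq_abs, abs_mul]
  exact mul_le_mul (abs_prod_le r ρ hr ω n) (ht _) (abs_nonneg _) (pow_nonneg h0 n)

lemma code_scons (hr1 : ∀ i, |r i| < 1) (x : Λ × (ℕ → Λ)) :
    code r t (scons x) = simMap r t x.1 (code r t x.2) := by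
  unfold code simMap
  rw [(code_summable r t hr1 (scons x)).tsum_eq_zero_add]
  simp only [Finset.range_zero, Finset.prod_empty, one_mul, scons_zero, scons_succ,
    Finset.prod_range_succ']
  rw [← tsum_mul_left, add_comm]
  congr 1
  exact tsum_congr fun n => by ring

lemma measurable_code [MeasurableSpace Λ] [DiscreteMeasurableSpace Λ] (hr1 : ∀ i, |r i| < 1) :
    Measurable (code r t) := by
  refine measurable_of_tendsto_metrizable (f := fun (N : ℕ) (ω : ℕ → Λ) =>
    ∑ n ∈ Finset.range N, (∏ k ∈ Finset.range n, r (ω k)) * t (ω n)) (fun N => ?_) ?_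
  · have h1 : ∀ (g : Λ → ℝ) (k : ℕ), Measurable fun ω : ℕ → Λ => g (ω k) := fun g k =>
      (Measurable.of_discrete (f := g)).comp (measurable_pi_apply k)
    refine Finset.measurable_sum _ fun n _ => ?_
    exact (Finset.measurable_prod _ fun k _ => h1 r k).mul (h1 t n)
  · rw [tendsto_pi_nhds]
    intro ω
    exact (code_summable r t hr1 ω).hasSum.tendsto_sum_nat

omit [Fintype Λ] [Nonempty Λ] in
lemma measurable_scons [MeasurableSpace Λ] : Measurable (scons (Λ := Λ)) := by
  rw [measurable_pi_iff]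
  intro n
  cases n with
  | zero => exact measurable_fst
  | succ n => exact (measurable_pi_apply n).comp measurable_snd

omit [Fintype Λ] [Nonempty Λ] in
/-- The Bernoulli measure is invariant under adding an independent first letter. -/
lemma map_scons [MeasurableSpace Λ] (ν : Measure Λ) [IsProbabilityMeasure ν] :
    (ν.prod (Measure.infinitePi fun _ : ℕ => ν)).map scons
      = Measure.infinitePi fun _ : ℕ => ν := by
  refine Measure.eq_infinitePi _ fun s A hA => ?_
  have hms : MeasurableSet (Set.pi (s : Set ℕ) A) :=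
    MeasurableSet.pi s.countable_toSet fun i _ => hA i
  rw [Measure.map_apply measurable_scons hms]
  obtain ⟨N, hN⟩ : ∃ N : ℕ, ∀ i ∈ s, i < N + 1 := by
    refine ⟨s.sup id, fun i hi => ?_⟩
    have := Finset.le_sup (f := id) hi
    simp only [id_eq] at this
    omega
  set A' : ℕ → Set Λ := fun i => if i ∈ s then A i else Set.univ with hA'
  have hA'm : ∀ i, MeasurableSet (A' i) := by
    intro i
    simp only [hA']
    split_ifs
    exacts [hA i, MeasurableSet.univ]
  have hpre : scons ⁻¹' (Set.pi (s : Set ℕ) A)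
      = A' 0 ×ˢ (Set.pi ((Finset.range N : Finset ℕ) : Set ℕ) fun n => A' (n + 1)) := by
    ext x
    simp only [Set.mem_preimage, Set.mem_pi, Finset.mem_coe, Set.mem_prod, Finset.mem_range, hA']
    constructor
    · intro h
      refine ⟨?_, fun n _ => ?_⟩
      · split_ifs with h0
        · exact h 0 h0
        · trivial
      · split_ifs with h0
        · exact h (n + 1) h0
        · trivial
    · rintro ⟨h1, h2⟩ i hi
      cases i with
      | zero => rw [if_pos hi] at h1; exact h1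
      | succ n =>
        have := h2 n (by have := hN _ hi; omega)
        rw [if_pos hi] at this
        exact this
  rw [hpre, Measure.prod_prod, Measure.infinitePi_pi _ (fun i _ => hA'm _)]
  have h1 : ∏ i ∈ s, ν (A i) = ∏ i ∈ Finset.range (N + 1), ν (A' i) := by
    have hsub : s ⊆ Finset.range (N + 1) := fun i hi => Finset.mem_range.2 (hN i hi)
    rw [← Finset.prod_subset hsub (f := fun i => ν (A' i))]
    · refine Finset.prod_congr rfl fun i hi => ?_
      simp only [hA', if_pos hi]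
    · intro i _ hi
      simp only [hA', if_neg hi, measure_univ]
  rw [h1, Finset.prod_range_succ', mul_comm]

/-- The law of a letter. -/
def letterLaw [MeasurableSpace Λ] (p : Λ → ℝ) : Measure Λ :=
  ∑ i, ENNReal.ofReal (p i) • Measure.dirac i

omit [Nonempty Λ] in
lemma letterLaw_prob [MeasurableSpace Λ] (p : Λ → ℝ) (hp : ∀ i, 0 ≤ p i)
    (hp1 : ∑ i, p i = 1) : IsProbabilityMeasure (letterLaw p) := by
  constructor
  unfold letterLaw
  rw [Measure.finsetSum_apply]
  simp only [Measure.smul_apply, measure_univ, smul_eq_mul, mul_one]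
  rw [← ENNReal.ofReal_sum_of_nonneg (fun i _ => hp i), hp1, ENNReal.ofReal_one]

/-- Existence of the self-similar measure, as the image of the Bernoulli measure. -/
theorem exists_selfSimilar (p : Λ → ℝ) (hr1 : ∀ i, |r i| < 1) (hp : ∀ i, 0 ≤ p i)
    (hp1 : ∑ i, p i = 1) :
    ∃ μ : Measure ℝ, IsSelfSimilar r t p μ ∧
      ∀ K : Set ℝ, MeasurableSet K → (∀ ω, code r t ω ∈ K) → μ K = 1 := by
  let _ : MeasurableSpace Λ := ⊤
  have : DiscreteMeasurableSpace Λ := ⟨fun _ => trivial⟩
  have hprob := letterLaw_prob p hp hp1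
  set ν := letterLaw p with hν
  set P := Measure.infinitePi fun _ : ℕ => ν with hP
  have hcm := measurable_code r t hr1
  refine ⟨P.map (code r t), ⟨Measure.isProbabilityMeasure_map hcm.aemeasurable, ?_⟩, ?_⟩
  · refine Measure.ext fun E hE => ?_
    rw [Measure.map_apply hcm hE]
    conv_lhs => rw [hP, ← map_scons ν]
    rw [Measure.map_apply measurable_scons (hcm hE)]
    have hm2 : MeasurableSet (scons ⁻¹' (code r t ⁻¹' E) : Set (Λ × (ℕ → Λ))) :=
      measurable_scons (hcm hE)
    rw [Measure.prod_apply hm2]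
    conv_lhs => rw [hν]
    unfold letterLaw
    rw [lintegral_finsetSum_measure]
    rw [Measure.finsetSum_apply]
    refine Finset.sum_congr rfl fun i _ => ?_
    rw [lintegral_smul_measure, lintegral_dirac, Measure.smul_apply,
      Measure.map_apply (measurable_simMap r t i) hE,
      Measure.map_apply hcm (measurable_simMap r t i hE)]
    congr 2
    ext ω
    simp only [Set.mem_preimage, code_scons r t hr1]
  · intro K hK hω
    rw [Measure.map_apply hcm hK]
    have : code r t ⁻¹' K = Set.univ := Set.eq_univ_of_forall fun ω => hω ω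
    rw [this, measure_univ]

omit [Fintype Λ] [Nonempty Λ] in
lemma partial_mem (K : Set ℝ) (hK : IsAttractor r t K) (ω : ℕ → Λ) (n : ℕ) :
    ∀ x ∈ K, ∑ k ∈ Finset.range n, (∏ j ∈ Finset.range k, r (ω j)) * t (ω k)
      + (∏ j ∈ Finset.range n, r (ω j)) * x ∈ K := by
  induction n with
  | zero => intro x hx; simpa using hx
  | succ n ih =>
    intro x hx
    have h1 : simMap r t (ω n) x ∈ K := by
      rw [hK.eq]
      exact Set.mem_iUnion.2 ⟨ω n, x, hx, rfl⟩
    have h2 := ih _ h1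
    rw [Finset.sum_range_succ, Finset.prod_range_succ]
    convert h2 using 1
    unfold simMap
    ring

lemma code_mem (hr1 : ∀ i, |r i| < 1) (K : Set ℝ) (hK : IsAttractor r t K) (ω : ℕ → Λ) :
    code r t ω ∈ K := by
  obtain ⟨x, hx⟩ := hK.nonempty
  obtain ⟨ρ, T, h0, h1, hT, hr, ht⟩ := exists_bounds r t hr1
  have hlim : Tendsto (fun n => ∑ k ∈ Finset.range n, (∏ j ∈ Finset.range k, r (ω j)) * t (ω k)
      + (∏ j ∈ Finset.range n, r (ω j)) * x) atTop (𝓝 (code r t ω + 0)) := by
    refine ((code_summable r t hr1 ω).hasSum.tendsto_sum_nat).add ?_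
    rw [tendsto_zero_iff_abs_tendsto_zero]
    refine squeeze_zero (fun _ => abs_nonneg _) (g := fun n => ρ ^ n * |x|) (fun n => ?_) ?_
    · simp only [Function.comp, abs_mul]
      exact mul_le_mul_of_nonneg_right (abs_prod_le r ρ hr ω n) (abs_nonneg _)
    · simpa using (tendsto_pow_atTop_nhds_zero_of_lt_one h0 h1).mul_const |x|
  rw [add_zero] at hlim
  exact hK.compact.isClosed.mem_of_tendsto hlim
    (Eventually.of_forall fun n => partial_mem r t K hK ω n x hx)

omit [Fintype Λ] [Nonempty Λ] in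
/-- The pieces of generation `n` cover the self-similar set. -/
lemma attractor_iter (K : Set ℝ) (hK : IsAttractor r t K) (n : ℕ) :
    K ⊆ ⋃ w : Fin n → Λ, (fun x => sl r w * x + tr r t w) '' K := by
  induction n with
  | zero =>
    intro x hx
    refine Set.mem_iUnion.2 ⟨Fin.elim0, x, hx, ?_⟩
    simp
  | succ n ih =>
    intro x hx
    have hx' := hx
    rw [hK.eq] at hx'
    obtain ⟨i, y, hy, rfl⟩ := Set.mem_iUnion.1 hx'
    obtain ⟨w, z, hz, rfl⟩ := Set.mem_iUnion.1 (ih hy)
    refine Set.mem_iUnion.2 ⟨Fin.cons i w, z, hz, ?_⟩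
    simp only [sl_cons, tr_cons, simMap]
    ring

omit [Nonempty Λ] in
lemma sum_abs_sl (s : ℝ) (hs1 : ∑ i, |r i| ^ s ≤ 1) (n : ℕ) :
    ∑ w : Fin n → Λ, |sl r w| ^ s ≤ 1 := by
  have h1 : ∀ w : Fin n → Λ, |sl r w| ^ s = ∏ k, |r (w k)| ^ s := by
    intro w
    rw [sl_eq_prod, Finset.abs_prod, Real.finsetProd_rpow _ _ (fun _ _ => abs_nonneg _)]
  simp only [h1]
  have := Finset.prod_univ_sum (fun _ : Fin n => (Finset.univ : Finset Λ))
    (fun _ a => |r a| ^ s)
  simp only [Finset.prod_const, Fintype.piFinset_univ, Finset.card_univ, Fintype.card_fin] at this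
  rw [← this]
  exact pow_le_one₀ (Finset.sum_nonneg fun i _ => Real.rpow_nonneg (abs_nonneg _) _) hs1

/-- Upper bound for the dimension of a self-similar set. -/
lemma dimH_attractor_le (hr1 : ∀ i, |r i| < 1) (K : Set ℝ) (hK : IsAttractor r t K) (s : ℝ)
    (hs : 0 ≤ s) (hs1 : ∑ i, |r i| ^ s ≤ 1) : dimH K ≤ ENNReal.ofReal s := by
  obtain ⟨ρ, T, h0, h1, hT, hr, ht⟩ := exists_bounds r t hr1
  have hbdd := hK.compact.isBounded
  set d := Metric.diam K with hd
  have hd0 : 0 ≤ d := Metric.diam_nonneg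
  have hsl : ∀ (n : ℕ) (w : Fin n → Λ), |sl r w| ≤ ρ ^ n := by
    intro n w
    rw [sl_eq_prod, Finset.abs_prod]
    calc ∏ k, |r (w k)| ≤ ∏ _k : Fin n, ρ :=
          Finset.prod_le_prod (fun _ _ => abs_nonneg _) fun k _ => hr _
      _ = ρ ^ n := by rw [Finset.prod_const, Finset.card_univ, Fintype.card_fin]
  have hdiam : ∀ (n : ℕ) (w : Fin n → Λ),
      Metric.ediam ((fun x => sl r w * x + tr r t w) '' K) ≤ ENNReal.ofReal (|sl r w| * d) := by
    intro n w
    refine Metric.ediam_le ?_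
    rintro _ ⟨x, hx, rfl⟩ _ ⟨y, hy, rfl⟩
    rw [edist_dist, Real.dist_eq]
    apply ENNReal.ofReal_le_ofReal
    have e : sl r w * x + tr r t w - (sl r w * y + tr r t w) = sl r w * (x - y) := by ring
    rw [e, abs_mul, ← Real.dist_eq]
    exact mul_le_mul_of_nonneg_left (Metric.dist_le_diam_of_mem hbdd hx hy) (abs_nonneg _)
  have hmain : (μH[s] : Measure ℝ) K ≤ liminf (fun n : ℕ => ∑ w : Fin n → Λ,
      Metric.ediam ((fun x => sl r w * x + tr r t w) '' K) ^ s) atTop := by
    refine Measure.hausdorffMeasure_le_liminf_sum s K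
      (fun n : ℕ => ENNReal.ofReal (ρ ^ n * d)) ?_
      (fun n (w : Fin n → Λ) => (fun x => sl r w * x + tr r t w) '' K) ?_ ?_
    · have h2 : Tendsto (fun n : ℕ => ρ ^ n * d) atTop (𝓝 0) := by
        simpa using (tendsto_pow_atTop_nhds_zero_of_lt_one h0 h1).mul_const d
      have := ENNReal.tendsto_ofReal h2
      simpa only [ENNReal.ofReal_zero] using this
    · refine Eventually.of_forall fun n w => (hdiam n w).trans ?_
      apply ENNReal.ofReal_le_ofReal
      exact mul_le_mul_of_nonneg_right (hsl n w) hd0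
    · exact Eventually.of_forall fun n => attractor_iter r t K hK n
  have hbound : ∀ n : ℕ, ∑ w : Fin n → Λ,
      Metric.ediam ((fun x => sl r w * x + tr r t w) '' K) ^ s ≤ ENNReal.ofReal (d ^ s) := by
    intro n
    calc ∑ w : Fin n → Λ, Metric.ediam ((fun x => sl r w * x + tr r t w) '' K) ^ s
        ≤ ∑ w : Fin n → Λ, ENNReal.ofReal (|sl r w| ^ s * d ^ s) := by
          refine Finset.sum_le_sum fun w _ => ?_
          refine (ENNReal.rpow_le_rpow (hdiam n w) hs).trans (le_of_eq ?_)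
          rw [ENNReal.ofReal_rpow_of_nonneg (mul_nonneg (abs_nonneg _) hd0) hs,
            Real.mul_rpow (abs_nonneg _) hd0]
      _ = ENNReal.ofReal (∑ w : Fin n → Λ, |sl r w| ^ s * d ^ s) := by
          rw [ENNReal.ofReal_sum_of_nonneg]
          intro w _
          exact mul_nonneg (Real.rpow_nonneg (abs_nonneg _) _) (Real.rpow_nonneg hd0 _)
      _ ≤ ENNReal.ofReal (d ^ s) := by
          apply ENNReal.ofReal_le_ofReal
          rw [← Finset.sum_mul]
          exact mul_le_of_le_one_left (Real.rpow_nonneg hd0 _) (sum_abs_sl r s hs1 n)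
  have hfin : (μH[s] : Measure ℝ) K ≠ ∞ := by
    refine ne_top_of_le_ne_top ENNReal.ofReal_ne_top (b := ENNReal.ofReal (d ^ s))
      (hmain.trans ?_)
    refine (liminf_le_liminf (Eventually.of_forall hbound)).trans ?_
    simp only [liminf_const, Std.le_refl]
  have := dimH_le_of_hausdorffMeasure_ne_top (s := K) (d := ⟨s, hs⟩) hfin
  refine this.trans ?_
  rw [ENNReal.ofReal, Real.toNNReal_of_nonneg hs]
  exact le_rfl

omit [Nonempty Λ] in
/-- Without exact overlaps the random walk entropy rate is the entropy of `p`. -/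
lemma hRW_eq (p : Λ → ℝ) (hp : ∀ i, 0 < p i) (hp1 : ∑ i, p i = 1)
    (hno : NoExactOverlaps r t) :
    hRW r t p = -∑ i, p i * Real.logb 2 (p i) := by
  set P : FinProb Λ := ⟨p, fun i => (hp i).le, hp1⟩ with hPdef
  have hstep : ∀ n : ℕ, stepEntropy r t p n = n * (-∑ i, p i * Real.logb 2 (p i)) := by
    intro n
    rw [stepEntropy_eq r t p P (fun _ => rfl) n]
    have hinj : ∀ w w' : Fin n → Λ, (sl r w, tr r t w) = (sl r w', tr r t w') → w = w' :=
      fun w w' h => hno n w w' ((wordMap_eq_iff r t w w').2 h)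
    have hpp : ∀ w : Fin n → Λ, (P.pi n).p (fun w : Fin n → Λ => (sl r w, tr r t w))
        (sl r w, tr r t w) = (P.pi n).w w := by
      intro w
      unfold FinProb.p
      rw [Finset.sum_eq_single w]
      · simp
      · intro b _ hb
        rw [if_neg]
        intro h
        exact hb (hinj _ _ h)
      · intro h
        exact absurd (Finset.mem_univ _) h
    unfold FinProb.H
    simp only [hpp]
    have h1 : ∑ w : Fin n → Λ, (P.pi n).w w * -Real.log ((P.pi n).w w)
        = n * ∑ i, P.w i * -Real.log (P.w i) := by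
      rw [← sum_pi_sum P (fun i => -Real.log (P.w i)) n]
      refine Finset.sum_congr rfl fun w _ => ?_
      rw [log_pi_w P (fun i => hp i), Finset.sum_neg_distrib]
    rw [h1, mul_div_assoc, Finset.sum_div]
    congr 1
    rw [← Finset.sum_neg_distrib]
    refine Finset.sum_congr rfl fun i _ => ?_
    unfold Real.logb
    show p i * -Real.log (p i) / Real.log 2 = _
    ring
  unfold hRW
  have : ∀ n : ℕ, stepEntropy r t p (n + 1) / ((n : ℝ) + 1)
      = -∑ i, p i * Real.logb 2 (p i) := by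
    intro n
    rw [hstep]
    push_cast
    field_simp
  simp only [this, ciInf_const]

/-- The dimension of self-similar sets on the line without exact overlaps. -/
theorem dimH_attractor (hr0 : ∀ i, r i ≠ 0) (hr1 : ∀ i, |r i| < 1)
    (hno : NoExactOverlaps r t) (K : Set ℝ) (hK : IsAttractor r t K) (s : ℝ)
    (hs : 0 ≤ s) (hs1 : ∑ i, |r i| ^ s = 1) : dimH K = ENNReal.ofReal (min 1 s) := by
  have hpos : ∀ i, 0 < |r i| := fun i => abs_pos.2 (hr0 i)
  refine le_antisymm ?_ ?_
  · rw [ENNReal.ofReal_min, ENNReal.ofReal_one]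
    refine le_min ?_ (dimH_attractor_le r t hr1 K hK s hs hs1.le)
    rw [← Real.dimH_univ]
    exact dimH_mono (Set.subset_univ _)
  · set p : Λ → ℝ := fun i => |r i| ^ s with hp
    have hp0 : ∀ i, 0 < p i := fun i => Real.rpow_pos_of_pos (hpos i) _
    obtain ⟨μ, hμ, hμK⟩ := exists_selfSimilar r t p hr1 (fun i => (hp0 i).le) hs1
    have hKm : MeasurableSet K := hK.compact.isClosed.measurableSet
    have h1 : μ K = 1 := hμK K hKm fun ω => code_mem r t hr1 K hK ω
    have h2 : lowerDimH μ ≤ dimH K :=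
      (iInf₂_le K hKm).trans (iInf_le _ (by rw [h1]; exact one_pos))
    refine le_trans (le_of_eq ?_) h2
    rw [formula r t p hr0 hr1 hp0 hs1 μ hμ, hRW_eq r t p hp0 hs1 hno]
    congr 2
    have hL := lyap_pos r p hr0 hr1 (fun i => (hp0 i).le) hs1
    rw [eq_div_iff hL.ne']
    unfold lyap
    rw [mul_neg, Finset.mul_sum]
    congr 1
    refine Finset.sum_congr rfl fun i _ => ?_
    simp only [hp, Real.logb, Real.log_rpow (hpos i)]
    ring

omit [Fintype Λ] [Nonempty Λ] in
lemma attractor_iter_ge (K : Set ℝ) (hK : IsAttractor r t K) (n : ℕ) (w : Fin n → Λ) :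
    (fun x => sl r w * x + tr r t w) '' K ⊆ K := by
  induction n with
  | zero =>
    rintro _ ⟨x, hx, rfl⟩
    simpa using hx
  | succ n ih =>
    rintro _ ⟨x, hx, rfl⟩
    rw [hK.eq]
    have h1 : sl r (Fin.tail w) * x + tr r t (Fin.tail w) ∈ K := ih (Fin.tail w) ⟨x, hx, rfl⟩
    refine Set.mem_iUnion.2 ⟨w 0, _, h1, ?_⟩
    have h2 : w = (Fin.cons (w 0) (Fin.tail w) : Fin (n + 1) → Λ) := (Fin.cons_self_tail w).symm
    show r (w 0) * (sl r (Fin.tail w) * x + tr r t (Fin.tail w)) + t (w 0)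
      = sl r w * x + tr r t w
    conv_rhs => rw [h2, sl_cons, tr_cons]
    ring

/-- With exact overlaps the dimension of the self-similar set drops. -/
theorem dimH_attractor_lt (hr0 : ∀ i, r i ≠ 0) (hr1 : ∀ i, |r i| < 1)
    (hno : ¬ NoExactOverlaps r t) (K : Set ℝ) (hK : IsAttractor r t K) (s : ℝ)
    (hs1 : ∑ i, |r i| ^ s = 1) : dimH K < ENNReal.ofReal s := by
  have hpos : ∀ i, 0 < |r i| := fun i => abs_pos.2 (hr0 i)
  unfold NoExactOverlaps at hno
  push Not at hno
  obtain ⟨n, u, v, huv, hne⟩ := hno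
  have hn : n ≠ 0 := by
    rintro rfl
    exact hne (Subsingleton.elim _ _)
  have hval := (wordMap_eq_iff r t u v).1 huv
  have hslu : sl r u = sl r v := (Prod.mk.inj hval).1
  have htru : tr r t u = tr r t v := (Prod.mk.inj hval).2
  have hslpos : ∀ w : Fin n → Λ, 0 < |sl r w| := by
    intro w
    rw [sl_eq_prod, Finset.abs_prod]
    exact Finset.prod_pos fun i _ => hpos _
  have hsllt : ∀ w : Fin n → Λ, |sl r w| < 1 := by
    intro w
    obtain ⟨ρ, T, h0, h1, hT, hr, ht⟩ := exists_bounds r t hr1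
    have h2 : |sl r w| ≤ ρ ^ n := by
      rw [sl_eq_prod, Finset.abs_prod]
      calc ∏ k, |r (w k)| ≤ ∏ _k : Fin n, ρ :=
            Finset.prod_le_prod (fun _ _ => abs_nonneg _) fun k _ => hr _
        _ = ρ ^ n := by rw [Finset.prod_const, Finset.card_univ, Fintype.card_fin]
    exact h2.trans_lt (pow_lt_one₀ h0 h1 hn)
  -- the subsystem without `u`
  have hAne : Nonempty {w : Fin n → Λ // w ≠ u} := ⟨⟨v, fun h => hne h.symm⟩⟩
  have hKA : IsAttractor (fun w : {w : Fin n → Λ // w ≠ u} => sl r w.1)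
      (fun w => tr r t w.1) K := by
    refine ⟨hK.nonempty, hK.compact, Set.Subset.antisymm ?_ ?_⟩
    · intro x hx
      obtain ⟨w, y, hy, hyx⟩ := Set.mem_iUnion.1 (attractor_iter r t K hK n hx)
      by_cases hw : w = u
      · refine Set.mem_iUnion.2 ⟨⟨v, fun h => hne h.symm⟩, y, hy, ?_⟩
        rw [← hyx, hw]
        show sl r v * y + tr r t v = sl r u * y + tr r t u
        rw [hslu, htru]
      · exact Set.mem_iUnion.2 ⟨⟨w, hw⟩, y, hy, hyx⟩
    · refine Set.iUnion_subset fun w => ?_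
      exact attractor_iter_ge r t K hK n w.1
  have hsum : ∑ w : {w : Fin n → Λ // w ≠ u}, |sl r w.1| ^ s < 1 := by
    have h1 := sum_abs_sl r s hs1.le n
    have h2 : ∑ w : Fin n → Λ, |sl r w| ^ s
        = |sl r u| ^ s + ∑ w : {w : Fin n → Λ // w ≠ u}, |sl r w.1| ^ s := by
      rw [← Finset.add_sum_erase Finset.univ _ (Finset.mem_univ u)]
      congr 1
      refine Finset.sum_subtype _ (fun w => ?_) _
      simp
    have h3 : 0 < |sl r u| ^ s := Real.rpow_pos_of_pos (hslpos u) _
    linarith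
  have hs0 : 0 < s := by
    by_contra hcon
    push Not at hcon
    have h1 : (1 : ℝ) ≤ |sl r v| ^ s := Real.one_le_rpow_of_pos_of_le_one_of_nonpos
      (hslpos v) (hsllt v).le hcon
    have h2 := Finset.single_le_sum (f := fun w : {w : Fin n → Λ // w ≠ u} => |sl r w.1| ^ s)
      (fun w _ => Real.rpow_nonneg (abs_nonneg _) _)
      (Finset.mem_univ (⟨v, fun h => hne h.symm⟩ : {w : Fin n → Λ // w ≠ u}))
    simp only at h2
    linarith
  have hcont : Continuous fun x : ℝ => ∑ w : {w : Fin n → Λ // w ≠ u}, |sl r w.1| ^ x := by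
    refine continuous_finsetSum _ fun w _ => ?_
    exact Real.continuous_const_rpow (hslpos w.1).ne'
  have hev : ∀ᶠ x in 𝓝 s, ∑ w : {w : Fin n → Λ // w ≠ u}, |sl r w.1| ^ x < 1 :=
    hcont.continuousAt.eventually_lt_const hsum
  obtain ⟨ε, hε, hball⟩ := Metric.eventually_nhds_iff.1 hev
  obtain ⟨s', hs'⟩ : ∃ s' : ℝ, s' = s - min (ε / 2) (s / 2) := ⟨_, rfl⟩
  have hm0 : 0 < min (ε / 2) (s / 2) := lt_min (by linarith) (by linarith)
  have hm1 : min (ε / 2) (s / 2) ≤ ε / 2 := min_le_left _ _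
  have hm2 : min (ε / 2) (s / 2) ≤ s / 2 := min_le_right _ _
  have hs'0 : 0 ≤ s' := by rw [hs']; linarith
  have hs's : s' < s := by rw [hs']; linarith
  have h4 := hball (y := s') (by
    rw [Real.dist_eq, hs', abs_lt]
    constructor <;> linarith)
  have h5 := dimH_attractor_le (fun w : {w : Fin n → Λ // w ≠ u} => sl r w.1)
    (fun w => tr r t w.1) (fun w => hsllt w.1) K hKA s' hs'0 h4.le
  refine lt_of_le_of_lt h5 ?_
  rw [ENNReal.ofReal_lt_ofReal_iff hs0]
  exact hs's

omit [Nonempty Λ] in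
/-- With exact overlaps the random walk entropy rate is smaller than the entropy of `p`. -/
lemma hRW_lt (p : Λ → ℝ) (hp : ∀ i, 0 < p i) (hp1 : ∑ i, p i = 1)
    (hno : ¬ NoExactOverlaps r t) :
    hRW r t p < -∑ i, p i * Real.logb 2 (p i) := by
  set P : FinProb Λ := ⟨p, fun i => (hp i).le, hp1⟩ with hPdef
  unfold NoExactOverlaps at hno
  push Not at hno
  obtain ⟨n, u, v, huv, hne⟩ := hno
  have hn : n ≠ 0 := by
    rintro rfl
    exact hne (Subsingleton.elim _ _)
  have hn0 : (0 : ℝ) < n := by exact_mod_cast Nat.pos_of_ne_zero hn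
  have hlog : 0 < Real.log 2 := Real.log_pos (by norm_num)
  have hval := (wordMap_eq_iff r t u v).1 huv
  have hwpos : ∀ w : Fin n → Λ, 0 < (P.pi n).w w := by
    intro w
    rw [FinProb.pi_w]
    exact Finset.prod_pos fun i _ => hp _
  refine lt_of_le_of_lt (hRW_le r t p (fun i => (hp i).le) hp1 n hn) ?_
  rw [stepEntropy_eq r t p P (fun _ => rfl) n, div_lt_iff₀ hn0, div_lt_iff₀ hlog]
  have h1 : ∑ w : Fin n → Λ, (P.pi n).w w * -Real.log ((P.pi n).w w)
      = n * ∑ i, P.w i * -Real.log (P.w i) := by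
    rw [← sum_pi_sum P (fun i => -Real.log (P.w i)) n]
    refine Finset.sum_congr rfl fun w _ => ?_
    rw [log_pi_w P (fun i => hp i), Finset.sum_neg_distrib]
  have h2 : -(∑ i, p i * Real.logb 2 (p i)) * n * Real.log 2
      = n * ∑ i, P.w i * -Real.log (P.w i) := by
    have : ∑ i, P.w i * -Real.log (P.w i)
        = -(∑ i, p i * Real.logb 2 (p i)) * Real.log 2 := by
      rw [neg_mul, Finset.sum_mul, ← Finset.sum_neg_distrib]
      refine Finset.sum_congr rfl fun i _ => ?_
      unfold Real.logb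
      show p i * -Real.log (p i) = _
      field_simp
    rw [this]
    ring
  rw [h2, ← h1]
  unfold FinProb.H
  refine Finset.sum_lt_sum (fun w _ => ?_) ⟨u, Finset.mem_univ u, ?_⟩
  · have := (P.pi n).w_le_p (fun w : Fin n → Λ => (sl r w, tr r t w)) w
    have h3 := Real.log_le_log (hwpos w) this
    exact mul_le_mul_of_nonneg_left (neg_le_neg h3) (hwpos w).le
  · have h3 : (P.pi n).w u < (P.pi n).p (fun w : Fin n → Λ => (sl r w, tr r t w))
        (sl r u, tr r t u) := by
      unfold FinProb.p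
      have h4 : (P.pi n).w u + (P.pi n).w v ≤ ∑ ω : Fin n → Λ,
          if (sl r ω, tr r t ω) = (sl r u, tr r t u) then (P.pi n).w ω else 0 := by
        have h5 : ∑ ω ∈ ({u, v} : Finset (Fin n → Λ)),
            (if (sl r ω, tr r t ω) = (sl r u, tr r t u) then (P.pi n).w ω else 0)
            ≤ ∑ ω : Fin n → Λ,
            if (sl r ω, tr r t ω) = (sl r u, tr r t u) then (P.pi n).w ω else 0 := by
          refine Finset.sum_le_sum_of_subset_of_nonneg (Finset.subset_univ _) fun ω _ _ => ?_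
          split_ifs
          exacts [(hwpos ω).le, le_rfl]
        rw [Finset.sum_pair hne, if_pos rfl, if_pos hval.symm] at h5
        exact h5
      refine lt_of_lt_of_le (lt_add_of_pos_right _ (hwpos v)) (h4.trans (le_of_eq ?_))
      refine Finset.sum_congr rfl fun ω _ => ?_
      by_cases h : (sl r ω, tr r t ω) = (sl r u, tr r t u)
      · rw [if_pos h, if_pos h]
      · rw [if_neg h, if_neg h]
    have h4 := Real.log_lt_log (hwpos u) h3
    exact mul_lt_mul_of_pos_left (neg_lt_neg h4) (hwpos u)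

/-- Comparison of two self-similar measures on half-lines. -/
lemma Iic_le (p : Λ → ℝ) (hr0 : ∀ i, r i ≠ 0) (hr1 : ∀ i, |r i| < 1)
    (hp : ∀ i, 0 ≤ p i) (hp1 : ∑ i, p i = 1) (μ μ' : Measure ℝ)
    (hμ : IsSelfSimilar r t p μ) (hμ' : IsSelfSimilar r t p μ') (a ε : ℝ) (hε : 0 < ε) :
    μ (Set.Iic a) ≤ μ' (Set.Iic (a + ε)) := by
  have := hμ.prob
  have := hμ'.prob
  set P : FinProb Λ := ⟨p, hp, hp1⟩ with hPdef
  obtain ⟨N1, hN10, hN1⟩ := exists_supp r t p hr0 hr1 hp hp1 μ hμ
  obtain ⟨N2, hN20, hN2⟩ := exists_supp r t p hr0 hr1 hp hp1 μ' hμ'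
  obtain ⟨ρ, T, h0, h1, hT, hr, ht⟩ := exists_bounds r t hr1
  obtain ⟨n, hn⟩ : ∃ n : ℕ, ρ ^ n * ((N1 : ℝ) + N2) < ε := by
    have h2 : Tendsto (fun n : ℕ => ρ ^ n * ((N1 : ℝ) + N2)) atTop (𝓝 (0 * ((N1 : ℝ) + N2))) :=
      (tendsto_pow_atTop_nhds_zero_of_lt_one h0 h1).mul_const _
    rw [zero_mul] at h2
    exact (h2.eventually_lt_const hε).exists
  have hsl : ∀ w : Fin n → Λ, |sl r w| ≤ ρ ^ n := by
    intro w
    rw [sl_eq_prod, Finset.abs_prod]
    calc ∏ k, |r (w k)| ≤ ∏ _k : Fin n, ρ :=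
          Finset.prod_le_prod (fun _ _ => abs_nonneg _) fun k _ => hr _
      _ = ρ ^ n := by rw [Finset.prod_const, Finset.card_univ, Fintype.card_fin]
  rw [selfsim_iter P r t μ hμ.eq n _ measurableSet_Iic,
    selfsim_iter P r t μ' hμ'.eq n _ measurableSet_Iic]
  refine Finset.sum_le_sum fun w _ => mul_le_mul_right ?_ _
  by_cases hex : ∃ x ∈ Set.Icc (-(N1 : ℝ)) N1, sl r w * x + tr r t w ≤ a
  · obtain ⟨x, hx, hxa⟩ := hex
    have h3 : Set.Icc (-(N2 : ℝ)) N2 ⊆ (fun x => sl r w * x + tr r t w) ⁻¹' Set.Iic (a + ε) := by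
      intro y hy
      show sl r w * y + tr r t w ≤ a + ε
      have h4 : |sl r w * (y - x)| ≤ ρ ^ n * ((N1 : ℝ) + N2) := by
        rw [abs_mul]
        refine mul_le_mul (hsl w) ?_ (abs_nonneg _) (pow_nonneg h0 n)
        rw [abs_le]
        constructor <;> linarith [hy.1, hy.2, hx.1, hx.2]
      have h5 := (abs_le.1 h4).2
      have h6 : sl r w * y + tr r t w = sl r w * (y - x) + (sl r w * x + tr r t w) := by ring
      linarith
    have h4 : (1 : ℝ≥0∞) ≤ μ' ((fun x => sl r w * x + tr r t w) ⁻¹' Set.Iic (a + ε)) := by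
      have h5 : μ' (Set.Icc (-(N2 : ℝ)) N2) = 1 :=
        (prob_compl_eq_zero_iff (μ := μ') measurableSet_Icc).1 hN2
      rw [← h5]
      exact measure_mono h3
    exact prob_le_one.trans h4
  · push Not at hex
    have h3 : μ ((fun x => sl r w * x + tr r t w) ⁻¹' Set.Iic a) = 0 := by
      refine measure_mono_null ?_ hN1
      intro x hx hx'
      have h4 : sl r w * x + tr r t w ≤ a := hx
      have := hex x hx'
      linarith
    rw [h3]
    exact zero_le

/-- Uniqueness of the self-similar measure. -/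
theorem unique_selfSimilar (p : Λ → ℝ) (hr0 : ∀ i, r i ≠ 0) (hr1 : ∀ i, |r i| < 1)
    (hp : ∀ i, 0 ≤ p i) (hp1 : ∑ i, p i = 1) (μ μ' : Measure ℝ)
    (hμ : IsSelfSimilar r t p μ) (hμ' : IsSelfSimilar r t p μ') : μ = μ' := by
  have h1 := hμ.prob
  have h2 := hμ'.prob
  have key : ∀ (μ μ' : Measure ℝ), IsSelfSimilar r t p μ → IsSelfSimilar r t p μ' → ∀ a,
      μ (Set.Iic a) ≤ μ' (Set.Iic a) := by
    intro μ μ' hμ hμ' a
    have := hμ'.prob
    have hlim : Tendsto (fun n : ℕ => μ' (Set.Iic (a + 1 / ((n : ℝ) + 1)))) atTop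
        (𝓝 (μ' (⋂ n : ℕ, Set.Iic (a + 1 / ((n : ℝ) + 1))))) := by
      refine tendsto_measure_iInter_atTop (fun n => measurableSet_Iic.nullMeasurableSet) ?_
        ⟨0, measure_ne_top _ _⟩
      intro m n hmn
      refine Set.Iic_subset_Iic.2 ?_
      have : (m : ℝ) ≤ n := by exact_mod_cast hmn
      gcongr
    have hint : (⋂ n : ℕ, Set.Iic (a + 1 / ((n : ℝ) + 1))) = Set.Iic a := by
      ext x
      simp only [Set.mem_iInter, Set.mem_Iic]
      constructor
      · intro h
        refine le_of_forall_pos_le_add fun ε hε => ?_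
        obtain ⟨n, hn⟩ := exists_nat_one_div_lt hε
        linarith [h n]
      · intro h n
        have : (0 : ℝ) < 1 / ((n : ℝ) + 1) := by positivity
        linarith
    rw [hint] at hlim
    refine ge_of_tendsto' hlim fun n => ?_
    exact Iic_le r t p hr0 hr1 hp hp1 μ μ' hμ hμ' a _ (by positivity)
  exact Measure.ext_of_Iic μ μ' fun a => le_antisymm (key μ μ' hμ hμ' a) (key μ' μ hμ' hμ a)

end

end Vale.Agent.P114.LD
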