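import Mathlib
import Vale.Agent.P114.Defs

/-!
Local dimensions of measures on the line: general facts.
-/

open scoped Classical ENNReal NNReal Topology

open MeasureTheory Filter

noncomputable section

namespace Vale.Agent.P114.LD

/-- Interpolation between the scales `R k`, lower bounds for the mass. -/
lemma interp_lower (f : ℝ → ℝ) (hf : Monotone f) (R : ℕ → ℝ) (hR0 : ∀ k, 0 < R k)
    (hR : Tendsto R atTop (𝓝 0)) (s : ℝ) (hs : 0 ≤ s)
    (h : ∀ᶠ k in atTop, (R k) ^ s ≤ f (R (k + 1))) :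
    ∀ᶠ ρ in 𝓝[>] (0 : ℝ), ρ ^ s ≤ f ρ := by
  obtain ⟨k0, hk0⟩ := eventually_atTop.1 h
  obtain ⟨c, hc0, hc⟩ : ∃ c : ℝ, 0 < c ∧ ∀ j ≤ k0, c ≤ R j := by
    refine ⟨(Finset.range (k0 + 1)).inf' (Finset.nonempty_range_iff.2 (by omega)) R, ?_, ?_⟩
    · rw [Finset.lt_inf'_iff]
      exact fun j _ => hR0 j
    · intro j hj
      exact Finset.inf'_le _ (Finset.mem_range.2 (by omega))
  have h1 : ∀ᶠ ρ in 𝓝[>] (0 : ℝ), ρ < c := by
    filter_upwards [Ioo_mem_nhdsGT hc0] with ρ hρ using hρ.2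
  filter_upwards [h1, self_mem_nhdsWithin] with ρ hρ hρ0
  have hρ0' : (0 : ℝ) < ρ := hρ0
  have hex : ∃ k, R k ≤ ρ := by
    have := (hR.eventually_lt_const hρ0').exists
    obtain ⟨k, hk⟩ := this
    exact ⟨k, hk.le⟩
  have hk1 := Nat.find_spec hex
  have hk2 : k0 < Nat.find hex := by
    by_contra hcon
    push Not at hcon
    have := hc _ hcon
    linarith
  obtain ⟨k, hk⟩ : ∃ k, Nat.find hex = k + 1 := ⟨Nat.find hex - 1, by omega⟩
  have hk3 : ρ < R k := by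
    by_contra hcon
    push Not at hcon
    exact Nat.find_min hex (m := k) (by omega) hcon
  rw [hk] at hk1
  calc ρ ^ s ≤ (R k) ^ s := Real.rpow_le_rpow hρ0'.le hk3.le hs
    _ ≤ f (R (k + 1)) := hk0 k (by omega)
    _ ≤ f ρ := hf hk1

/-- Interpolation between the scales `R k`, upper bounds for the mass. -/
lemma interp_upper (f : ℝ → ℝ) (hf : Monotone f) (R : ℕ → ℝ) (hR0 : ∀ k, 0 < R k)
    (hR : Tendsto R atTop (𝓝 0)) (s : ℝ) (hs : 0 ≤ s)
    (h : ∀ᶠ k in atTop, f (R k) ≤ (R (k + 1)) ^ s) :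
    ∀ᶠ ρ in 𝓝[>] (0 : ℝ), f ρ ≤ ρ ^ s := by
  obtain ⟨k0, hk0⟩ := eventually_atTop.1 h
  obtain ⟨c, hc0, hc⟩ : ∃ c : ℝ, 0 < c ∧ ∀ j ≤ k0, c ≤ R j := by
    refine ⟨(Finset.range (k0 + 1)).inf' (Finset.nonempty_range_iff.2 (by omega)) R, ?_, ?_⟩
    · rw [Finset.lt_inf'_iff]
      exact fun j _ => hR0 j
    · intro j hj
      exact Finset.inf'_le _ (Finset.mem_range.2 (by omega))
  have h1 : ∀ᶠ ρ in 𝓝[>] (0 : ℝ), ρ < c := by
    filter_upwards [Ioo_mem_nhdsGT hc0] with ρ hρ using hρ.2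
  filter_upwards [h1, self_mem_nhdsWithin] with ρ hρ hρ0
  have hρ0' : (0 : ℝ) < ρ := hρ0
  have hex : ∃ k, R k ≤ ρ := by
    have := (hR.eventually_lt_const hρ0').exists
    obtain ⟨k, hk⟩ := this
    exact ⟨k, hk.le⟩
  have hk1 := Nat.find_spec hex
  have hk2 : k0 < Nat.find hex := by
    by_contra hcon
    push Not at hcon
    have := hc _ hcon
    linarith
  obtain ⟨k, hk⟩ : ∃ k, Nat.find hex = k + 1 := ⟨Nat.find hex - 1, by omega⟩
  have hk3 : ρ < R k := by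
    by_contra hcon
    push Not at hcon
    exact Nat.find_min hex (m := k) (by omega) hcon
  rw [hk] at hk1
  calc f ρ ≤ f (R k) := hf hk3.le
    _ ≤ (R (k + 1)) ^ s := hk0 k (by omega)
    _ ≤ ρ ^ s := Real.rpow_le_rpow (hR0 _).le hk1 hs

/-- The mass of closed balls is a monotone function of the radius. -/
lemma mono_ball (μ : Measure ℝ) [IsFiniteMeasure μ] (x : ℝ) :
    Monotone fun ρ => μ.real (Metric.closedBall x ρ) := fun _ _ h =>
  measureReal_mono (Metric.closedBall_subset_closedBall h)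

/-- Cell of level `k` of the dyadic grid. -/
def dcell (k : ℕ) (z : ℤ) : Set ℝ := {y | ⌊y * 2 ^ k⌋ = z}

lemma measurable_dfloor (k : ℕ) : Measurable fun y : ℝ => ⌊y * 2 ^ k⌋ :=
  Int.measurable_floor.comp (by fun_prop)

lemma dcell_meas (k : ℕ) (z : ℤ) : MeasurableSet (dcell k z) :=
  measurable_dfloor k (MeasurableSet.singleton z)

lemma dcell_dist (k : ℕ) (z : ℤ) (x y : ℝ) (hx : x ∈ dcell k z) (hy : y ∈ dcell k z) :
    |x - y| ≤ (1 / 2) ^ k := by
  have hx' : ⌊x * 2 ^ k⌋ = z := hx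
  have hy' : ⌊y * 2 ^ k⌋ = z := hy
  have h1 := Int.abs_sub_lt_one_of_floor_eq_floor (hx'.trans hy'.symm)
  have hp : (0 : ℝ) < 2 ^ k := by positivity
  rw [← sub_mul, abs_mul, abs_of_pos hp, ← lt_div_iff₀ hp] at h1
  rw [one_div, inv_pow, ← one_div]
  exact h1.le

lemma dcell_disj (k : ℕ) : Pairwise (Function.onFun Disjoint (dcell k)) := by
  intro z z' hne
  refine Set.disjoint_left.2 fun x hx hx' => hne ?_
  have e1 : ⌊x * 2 ^ k⌋ = z := hx
  have e2 : ⌊x * 2 ^ k⌋ = z' := hx'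
  rw [← e1, e2]

lemma dcell_union (k : ℕ) : ⋃ z, dcell k z = Set.univ :=
  Set.eq_univ_of_forall fun x => Set.mem_iUnion.2 ⟨⌊x * 2 ^ k⌋, rfl⟩

lemma tsum_dcell (μ : Measure ℝ) (k : ℕ) : ∑' z, μ (dcell k z) = μ Set.univ := by
  rw [← measure_iUnion (dcell_disj k) (dcell_meas k), dcell_union]

/-- Mass of three neighbouring cells. -/
def tri (μ : Measure ℝ) (k : ℕ) (z : ℤ) : ℝ≥0∞ :=
  μ (dcell k (z - 1)) + μ (dcell k z) + μ (dcell k (z + 1))

lemma tsum_tri (μ : Measure ℝ) (k : ℕ) : ∑' z, tri μ k z = 3 * μ Set.univ := by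
  unfold tri
  rw [ENNReal.tsum_add, ENNReal.tsum_add, tsum_dcell]
  have h1 : ∑' z : ℤ, μ (dcell k (z - 1)) = μ Set.univ := by
    rw [← tsum_dcell μ k]
    exact (Equiv.subRight (1 : ℤ)).tsum_eq (fun z => μ (dcell k z))
  have h2 : ∑' z : ℤ, μ (dcell k (z + 1)) = μ Set.univ := by
    rw [← tsum_dcell μ k]
    exact (Equiv.addRight (1 : ℤ)).tsum_eq (fun z => μ (dcell k z))
  rw [h1, h2]
  ring

lemma ball_le_tri (μ : Measure ℝ) (k : ℕ) (x : ℝ) :
    μ (Metric.closedBall x ((1 / 2) ^ k)) ≤ tri μ k ⌊x * 2 ^ k⌋ := by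
  have hp : (0 : ℝ) < 2 ^ k := by positivity
  set z := ⌊x * 2 ^ k⌋ with hz
  have hsub : Metric.closedBall x ((1 / 2) ^ k)
      ⊆ (dcell k (z - 1) ∪ dcell k z) ∪ dcell k (z + 1) := by
    intro y hy
    rw [Metric.mem_closedBall, Real.dist_eq] at hy
    have hy2 : |y * 2 ^ k - x * 2 ^ k| ≤ 1 := by
      rw [← sub_mul, abs_mul, abs_of_pos hp]
      calc |y - x| * 2 ^ k ≤ (1 / 2) ^ k * 2 ^ k := by gcongr
        _ = 1 := by rw [← mul_pow]; norm_num
    have hy3 := abs_le.1 hy2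
    have h3 := Int.floor_le (x * 2 ^ k)
    have h4 := Int.lt_floor_add_one (x * 2 ^ k)
    have h5 := Int.floor_le (y * 2 ^ k)
    have h6 := Int.lt_floor_add_one (y * 2 ^ k)
    rw [← hz] at h3 h4
    have h7 : z - 1 ≤ ⌊y * 2 ^ k⌋ := by
      have : ((z - 1 : ℤ) : ℝ) < ⌊y * 2 ^ k⌋ + 1 := by push_cast; linarith
      have : (z - 1 : ℤ) < ⌊y * 2 ^ k⌋ + 1 := by exact_mod_cast this
      omega
    have h8 : ⌊y * 2 ^ k⌋ ≤ z + 1 := by
      have : (⌊y * 2 ^ k⌋ : ℝ) < ((z + 2 : ℤ) : ℝ) := by push_cast; linarith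
      have : ⌊y * 2 ^ k⌋ < z + 2 := by exact_mod_cast this
      omega
    have h9 : ⌊y * 2 ^ k⌋ = z - 1 ∨ ⌊y * 2 ^ k⌋ = z ∨ ⌊y * 2 ^ k⌋ = z + 1 := by omega
    rcases h9 with h9 | h9 | h9
    · exact Or.inl (Or.inl h9)
    · exact Or.inl (Or.inr h9)
    · exact Or.inr h9
  refine (measure_mono hsub).trans ((measure_union_le _ _).trans ?_)
  unfold tri
  gcongr
  exact measure_union_le _ _

/-- The set of points whose cell has heavy neighbourhood. -/
def heavy (μ : Measure ℝ) (d : ℝ) (k : ℕ) : Set ℝ :=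
  {x | ENNReal.ofReal (((1 / 2 : ℝ) ^ k) ^ d) < tri μ k ⌊x * 2 ^ k⌋}

lemma heavy_meas (μ : Measure ℝ) (d : ℝ) (k : ℕ) : MeasurableSet (heavy μ d k) :=
  (measurable_dfloor k) (MeasurableSet.of_discrete
    (s := {z | ENNReal.ofReal (((1 / 2 : ℝ) ^ k) ^ d) < tri μ k z}))

/-- The limsup of the heavy sets has dimension at most `d`. -/
lemma dimH_heavy_le (μ : Measure ℝ) [IsProbabilityMeasure μ] (d s : ℝ) (hds : d < s)
    (hs : 0 < s) :
    dimH (⋂ n : ℕ, ⋃ m : ℕ, ⋃ _ : n ≤ m, heavy μ d m) ≤ ENNReal.ofReal s := by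
  set E := ⋂ n : ℕ, ⋃ m : ℕ, ⋃ _ : n ≤ m, heavy μ d m with hE
  set tt : ∀ _n : ℕ, ℕ × ℤ → Set ℝ := fun n x =>
    if n ≤ x.1 ∧ ENNReal.ofReal (((1 / 2 : ℝ) ^ x.1) ^ d) < tri μ x.1 x.2 then
      dcell x.1 x.2 else ∅ with htt
  have hdiam : ∀ (k : ℕ) (z : ℤ), Metric.ediam (dcell k z) ≤ ENNReal.ofReal ((1 / 2) ^ k) := by
    intro k z
    refine Metric.ediam_le fun x hx y hy => ?_
    rw [edist_dist, Real.dist_eq]
    exact ENNReal.ofReal_le_ofReal (dcell_dist k z x y hx hy)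
  have hmain : (μH[s] : Measure ℝ) E ≤ liminf (fun n : ℕ => ∑' x : ℕ × ℤ,
      Metric.ediam (tt n x) ^ s) atTop := by
    refine Measure.hausdorffMeasure_le_liminf_tsum s E
      (fun n : ℕ => ENNReal.ofReal ((1 / 2) ^ n)) ?_ tt ?_ ?_
    · have h1 : Tendsto (fun n : ℕ => ((1 : ℝ) / 2) ^ n) atTop (𝓝 0) :=
        tendsto_pow_atTop_nhds_zero_of_lt_one (by norm_num) (by norm_num)
      have := ENNReal.tendsto_ofReal h1
      simpa only [ENNReal.ofReal_zero] using this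
    · refine Eventually.of_forall fun n x => ?_
      simp only [htt]
      split_ifs with hx
      · refine (hdiam x.1 x.2).trans ?_
        apply ENNReal.ofReal_le_ofReal
        exact pow_le_pow_of_le_one (by norm_num) (by norm_num) hx.1
      · simp only [Metric.ediam_empty, zero_le]
    · refine Eventually.of_forall fun n x hx => ?_
      have h1 := Set.mem_iInter.1 hx n
      simp only [Set.mem_iUnion] at h1
      obtain ⟨m, hnm, hx⟩ := h1
      refine Set.mem_iUnion.2 ⟨(m, ⌊x * 2 ^ m⌋), ?_⟩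
      simp only [htt]
      rw [if_pos ⟨hnm, hx⟩]
      rfl
  have hterm : ∀ (n m : ℕ) (z : ℤ), Metric.ediam (tt n (m, z)) ^ s
      ≤ ENNReal.ofReal (((1 / 2 : ℝ) ^ m) ^ (s - d)) * tri μ m z := by
    intro n m z
    have hp : (0 : ℝ) < (1 / 2) ^ m := by positivity
    simp only [htt]
    split_ifs with hx
    · refine (ENNReal.rpow_le_rpow (hdiam m z) hs.le).trans ?_
      rw [ENNReal.ofReal_rpow_of_pos hp]
      calc ENNReal.ofReal (((1 / 2 : ℝ) ^ m) ^ s)
          = ENNReal.ofReal (((1 / 2 : ℝ) ^ m) ^ (s - d)) *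
            ENNReal.ofReal (((1 / 2 : ℝ) ^ m) ^ d) := by
            rw [← ENNReal.ofReal_mul (Real.rpow_nonneg hp.le _), ← Real.rpow_add hp]
            congr 2
            ring
        _ ≤ _ := by gcongr; exact hx.2.le
    · simp only [Metric.ediam_empty, ENNReal.zero_rpow_of_pos hs, zero_le]
  have hsumm : Summable fun m : ℕ => ((1 / 2 : ℝ) ^ m) ^ (s - d) := by
    have : ∀ m : ℕ, ((1 / 2 : ℝ) ^ m) ^ (s - d) = ((1 / 2 : ℝ) ^ (s - d)) ^ m := by
      intro m
      rw [← Real.rpow_natCast, ← Real.rpow_natCast, ← Real.rpow_mul (by norm_num),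
        ← Real.rpow_mul (by norm_num), mul_comm]
    simp only [this]
    exact summable_geometric_of_lt_one (by positivity)
      (Real.rpow_lt_one (by norm_num) (by norm_num) (by linarith))
  have hbound : ∀ n : ℕ, ∑' x : ℕ × ℤ, Metric.ediam (tt n x) ^ s
      ≤ (∑' m : ℕ, ENNReal.ofReal (((1 / 2 : ℝ) ^ m) ^ (s - d))) * 3 := by
    intro n
    rw [ENNReal.tsum_prod', ← ENNReal.tsum_mul_right]
    refine ENNReal.tsum_le_tsum fun m => ?_
    refine (ENNReal.tsum_le_tsum fun z => hterm n m z).trans ?_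
    rw [ENNReal.tsum_mul_left, tsum_tri, measure_univ, mul_one]
  have hfin : (μH[s] : Measure ℝ) E ≠ ∞ := by
    refine ne_top_of_le_ne_top (ENNReal.mul_ne_top hsumm.tsum_ofReal_ne_top (ENNReal.ofNat_ne_top (n := 3)))
      (hmain.trans ?_)
    refine (liminf_le_liminf (Eventually.of_forall hbound)).trans ?_
    simp only [liminf_const, Std.le_refl]
  have := dimH_le_of_hausdorffMeasure_ne_top (s := E) (d := ⟨s, hs.le⟩) hfin
  refine this.trans ?_
  rw [ENNReal.ofReal, Real.toNNReal_of_nonneg hs.le]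
  exact le_rfl

/-- Almost everywhere the lower local dimension is at least the lower Hausdorff dimension. -/
theorem upper_mass (μ : Measure ℝ) [IsProbabilityMeasure μ] (d : ℝ)
    (hd : ENNReal.ofReal d < lowerDimH μ) (hd0 : 0 ≤ d) :
    ∀ᵐ x ∂μ, ∀ᶠ ρ in 𝓝[>] (0 : ℝ), μ.real (Metric.closedBall x ρ) ≤ ρ ^ d := by
  -- choose `d < d1 < s < lowerDimH`
  obtain ⟨q, hq1, hq2⟩ := ENNReal.lt_iff_exists_nnreal_btwn.1 hd
  have hdq : d < q := by
    by_contra hcon
    push Not at hcon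
    have := ENNReal.ofReal_le_ofReal hcon
    rw [ENNReal.ofReal_coe_nnreal] at this
    exact absurd hq1 (not_lt.2 this)
  set d1 : ℝ := (d + q) / 2 with hd1
  have h1 : d < d1 := by rw [hd1]; linarith
  have h2 : d1 < q := by rw [hd1]; linarith
  have hq0 : (0 : ℝ) < q := by linarith
  have hdim := dimH_heavy_le μ d1 q h2 hq0
  rw [ENNReal.ofReal_coe_nnreal] at hdim
  set E := ⋂ n : ℕ, ⋃ m : ℕ, ⋃ _ : n ≤ m, heavy μ d1 m with hE
  have hEm : MeasurableSet E := MeasurableSet.iInter fun n => MeasurableSet.iUnion fun m =>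
    MeasurableSet.iUnion fun _ => heavy_meas μ d1 m
  have hE0 : μ E = 0 := by
    by_contra hcon
    have h3 : lowerDimH μ ≤ dimH E :=
      (iInf₂_le _ hEm).trans (iInf_le _ (pos_iff_ne_zero.2 hcon))
    exact absurd (h3.trans hdim) (not_le.2 hq2)
  have hae : ∀ᵐ x ∂μ, x ∉ E := measure_eq_zero_iff_ae_notMem.1 hE0
  filter_upwards [hae] with x hx
  have h3 : ∀ᶠ k in atTop, μ.real (Metric.closedBall x ((1 / 2) ^ k))
      ≤ ((1 / 2 : ℝ) ^ k) ^ d1 := by
    rw [hE, Set.mem_iInter] at hx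
    push Not at hx
    obtain ⟨n, hn⟩ := hx
    filter_upwards [eventually_ge_atTop n] with k hk
    have h4 : x ∉ heavy μ d1 k := fun h => hn (by
      simp only [Set.mem_iUnion]
      exact ⟨k, hk, h⟩)
    have h5 : tri μ k ⌊x * 2 ^ k⌋ ≤ ENNReal.ofReal (((1 / 2 : ℝ) ^ k) ^ d1) := not_lt.1 h4
    exact ENNReal.toReal_le_of_le_ofReal (by positivity) ((ball_le_tri μ k x).trans h5)
  refine interp_upper (fun ρ => μ.real (Metric.closedBall x ρ)) (mono_ball μ x)
    (fun k => (1 / 2) ^ k) (fun k => by positivity)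
    (tendsto_pow_atTop_nhds_zero_of_lt_one (by norm_num) (by norm_num)) d hd0 ?_
  have h6 : ∀ᶠ k : ℕ in atTop, ((1 / 2 : ℝ) ^ k) ^ d1 ≤ ((1 / 2 : ℝ) ^ (k + 1)) ^ d := by
    obtain ⟨k0, hk0⟩ := exists_nat_gt (d / (d1 - d))
    filter_upwards [eventually_ge_atTop k0] with k hk
    have hkR : (k0 : ℝ) ≤ k := by exact_mod_cast hk
    rw [← Real.rpow_natCast, ← Real.rpow_natCast, ← Real.rpow_mul (by norm_num),
      ← Real.rpow_mul (by norm_num)]
    refine Real.rpow_le_rpow_of_exponent_ge (by norm_num) (by norm_num) ?_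
    rw [div_lt_iff₀ (by linarith)] at hk0
    push_cast
    nlinarith
  filter_upwards [h3, h6] with k hk hk'
  exact hk.trans hk'

/-- Almost everywhere the upper local dimension is at most one. -/
theorem lower_mass_one (μ : Measure ℝ) [IsProbabilityMeasure μ] (s : ℝ) (hs : 1 < s) (N : ℕ)
    (hN : μ (Set.Icc (-(N : ℝ)) N)ᶜ = 0) :
    ∀ᵐ x ∂μ, ∀ᶠ ρ in 𝓝[>] (0 : ℝ), ρ ^ s ≤ μ.real (Metric.closedBall x ρ) := by
  obtain ⟨s', hs'⟩ : ∃ s' : ℝ, s' = (1 + s) / 2 := ⟨_, rfl⟩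
  have h1 : 1 < s' := by rw [hs']; linarith
  have h2 : s' < s := by rw [hs']; linarith
  set V : ℕ → Set ℝ := fun k =>
    {x | μ (dcell k ⌊x * 2 ^ k⌋) < ENNReal.ofReal (((1 / 2 : ℝ) ^ k) ^ s')} with hV
  have hcover : ∀ k, μ (V k) ≤ ENNReal.ofReal ((2 * N + 2) * ((1 / 2 : ℝ) ^ k) ^ (s' - 1)) := by
    intro k
    have hp : (0 : ℝ) < (1 / 2) ^ k := by positivity
    have h2p : (1 : ℝ) ≤ 2 ^ k := one_le_pow₀ (by norm_num)
    set F : Finset ℤ := Finset.Icc (-((N : ℤ) * 2 ^ k)) (N * 2 ^ k) with hF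
    have hsub : V k ⊆ (⋃ z ∈ F, (if μ (dcell k z) < ENNReal.ofReal (((1 / 2 : ℝ) ^ k) ^ s')
        then dcell k z else ∅)) ∪ (Set.Icc (-(N : ℝ)) N)ᶜ := by
      intro x hx
      by_cases hxN : x ∈ Set.Icc (-(N : ℝ)) N
      · refine Or.inl ?_
        simp only [Set.mem_iUnion]
        refine ⟨⌊x * 2 ^ k⌋, ?_, ?_⟩
        · rw [hF, Finset.mem_Icc]
          constructor
          · rw [Int.le_floor]
            push_cast
            nlinarith [hxN.1]
          · have : (⌊x * 2 ^ k⌋ : ℝ) ≤ ((N * 2 ^ k : ℤ) : ℝ) := by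
              push_cast
              refine (Int.floor_le _).trans ?_
              nlinarith [hxN.2]
            exact_mod_cast this
        · rw [if_pos (show μ (dcell k ⌊x * 2 ^ k⌋) < _ from hx)]
          rfl
      · exact Or.inr hxN
    refine (measure_mono hsub).trans ((measure_union_le _ _).trans ?_)
    rw [hN, add_zero]
    refine (measure_biUnion_finset_le _ _).trans ?_
    have hcard : (F.card : ℝ) ≤ (2 * N + 2) * 2 ^ k := by
      rw [hF, Int.card_Icc]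
      have : ((N : ℤ) * 2 ^ k + 1 - -((N : ℤ) * 2 ^ k)).toNat = 2 * N * 2 ^ k + 1 := by
        have : (N : ℤ) * 2 ^ k + 1 - -((N : ℤ) * 2 ^ k) = ((2 * N * 2 ^ k + 1 : ℕ) : ℤ) := by
          push_cast; ring
        rw [this, Int.toNat_natCast]
      rw [this]
      push_cast
      nlinarith
    calc ∑ z ∈ F, μ (if μ (dcell k z) < ENNReal.ofReal (((1 / 2 : ℝ) ^ k) ^ s')
          then dcell k z else ∅)
        ≤ ∑ _z ∈ F, ENNReal.ofReal (((1 / 2 : ℝ) ^ k) ^ s') := by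
          refine Finset.sum_le_sum fun z _ => ?_
          split_ifs with h
          · exact h.le
          · simp
      _ = ENNReal.ofReal (F.card * ((1 / 2 : ℝ) ^ k) ^ s') := by
          rw [Finset.sum_const, nsmul_eq_mul, ENNReal.ofReal_mul (by positivity),
            ENNReal.ofReal_natCast]
      _ ≤ _ := by
          apply ENNReal.ofReal_le_ofReal
          calc (F.card : ℝ) * ((1 / 2 : ℝ) ^ k) ^ s'
              ≤ (2 * N + 2) * 2 ^ k * ((1 / 2 : ℝ) ^ k) ^ s' := by gcongr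
            _ = (2 * N + 2) * ((1 / 2 : ℝ) ^ k) ^ (s' - 1) := by
                rw [Real.rpow_sub_one hp.ne']
                have : (2 : ℝ) ^ k = 1 / (1 / 2) ^ k := by
                  rw [one_div_pow, one_div_one_div]
                rw [this]
                ring
  have hsumm : Summable fun k : ℕ => (2 * (N : ℝ) + 2) * ((1 / 2 : ℝ) ^ k) ^ (s' - 1) := by
    refine Summable.mul_left _ ?_
    have : ∀ m : ℕ, ((1 / 2 : ℝ) ^ m) ^ (s' - 1) = ((1 / 2 : ℝ) ^ (s' - 1)) ^ m := by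
      intro m
      rw [← Real.rpow_natCast, ← Real.rpow_natCast, ← Real.rpow_mul (by norm_num),
        ← Real.rpow_mul (by norm_num), mul_comm]
    simp only [this]
    exact summable_geometric_of_lt_one (by positivity)
      (Real.rpow_lt_one (by norm_num) (by norm_num) (by linarith))
  have hBC := ae_eventually_notMem (μ := μ) (s := V)
    (ne_top_of_le_ne_top hsumm.tsum_ofReal_ne_top (ENNReal.tsum_le_tsum hcover))
  filter_upwards [hBC] with x hx
  refine interp_lower (fun ρ => μ.real (Metric.closedBall x ρ)) (mono_ball μ x)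
    (fun k => (1 / 2) ^ k) (fun k => by positivity)
    (tendsto_pow_atTop_nhds_zero_of_lt_one (by norm_num) (by norm_num)) s (by linarith) ?_
  have h6 : ∀ᶠ k : ℕ in atTop, ((1 / 2 : ℝ) ^ k) ^ s ≤ ((1 / 2 : ℝ) ^ (k + 1)) ^ s' := by
    obtain ⟨k0, hk0⟩ := exists_nat_gt (s' / (s - s'))
    filter_upwards [eventually_ge_atTop k0] with k hk
    have hkR : (k0 : ℝ) ≤ k := by exact_mod_cast hk
    rw [← Real.rpow_natCast, ← Real.rpow_natCast, ← Real.rpow_mul (by norm_num),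
      ← Real.rpow_mul (by norm_num)]
    refine Real.rpow_le_rpow_of_exponent_ge (by norm_num) (by norm_num) ?_
    rw [div_lt_iff₀ (by linarith)] at hk0
    push_cast
    nlinarith
  have h7 : ∀ᶠ k : ℕ in atTop, ((1 / 2 : ℝ) ^ k) ^ s'
      ≤ μ.real (Metric.closedBall x ((1 / 2) ^ k)) := by
    filter_upwards [hx] with k hk
    have h8 : ENNReal.ofReal (((1 / 2 : ℝ) ^ k) ^ s') ≤ μ (dcell k ⌊x * 2 ^ k⌋) := not_lt.1 hk
    have h9 : dcell k ⌊x * 2 ^ k⌋ ⊆ Metric.closedBall x ((1 / 2) ^ k) := by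
      intro y hy
      rw [Metric.mem_closedBall, Real.dist_eq]
      exact dcell_dist k _ y x hy rfl
    have h10 := h8.trans (measure_mono h9)
    rw [Measure.real]
    exact (ENNReal.ofReal_le_iff_le_toReal (measure_ne_top _ _)).1 h10
  filter_upwards [h6, (tendsto_add_atTop_nat 1).eventually h7] with k hk hk'
  exact hk.trans hk'

/-- From mass bounds at all small scales to the local dimension. -/
lemma tendsto_of_mass (f : ℝ → ℝ) (hf1 : ∀ ρ, f ρ ≤ 1) (D : ℝ)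
    (hlow : ∀ s, D < s → ∀ᶠ ρ in 𝓝[>] (0 : ℝ), ρ ^ s ≤ f ρ)
    (hup : ∀ d, 0 ≤ d → d < D → ∀ᶠ ρ in 𝓝[>] (0 : ℝ), f ρ ≤ ρ ^ d) :
    Tendsto (fun ρ => Real.log (f ρ) / Real.log ρ) (𝓝[>] 0) (𝓝 D) := by
  have hsmall : ∀ᶠ ρ in 𝓝[>] (0 : ℝ), 0 < ρ ∧ ρ < 1 := by
    filter_upwards [Ioo_mem_nhdsGT (show (0 : ℝ) < 1 by norm_num)] with ρ hρ using hρ
  rw [tendsto_order]
  constructor
  · intro a ha
    rcases lt_or_ge a 0 with h0 | h0
    · filter_upwards [hsmall, hlow (D + 1) (by linarith)] with ρ hρ h1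
      have h2 : 0 < f ρ := lt_of_lt_of_le (Real.rpow_pos_of_pos hρ.1 _) h1
      have h3 : Real.log (f ρ) ≤ 0 := Real.log_nonpos h2.le (hf1 ρ)
      have h4 : Real.log ρ < 0 := Real.log_neg hρ.1 hρ.2
      exact h0.trans_le (div_nonneg_of_nonpos h3 h4.le)
    · filter_upwards [hsmall, hlow (D + 1) (by linarith), hup ((a + D) / 2) (by linarith)
        (by linarith)] with ρ hρ h1 h5
      have h2 : 0 < f ρ := lt_of_lt_of_le (Real.rpow_pos_of_pos hρ.1 _) h1
      have h4 : Real.log ρ < 0 := Real.log_neg hρ.1 hρ.2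
      have h6 := Real.log_le_log h2 h5
      rw [Real.log_rpow hρ.1] at h6
      have h7 : (a + D) / 2 ≤ Real.log (f ρ) / Real.log ρ := by
        rw [le_div_iff_of_neg h4]
        exact h6
      linarith
  · intro b hb
    filter_upwards [hsmall, hlow ((D + b) / 2) (by linarith)] with ρ hρ h1
    have h2 : 0 < f ρ := lt_of_lt_of_le (Real.rpow_pos_of_pos hρ.1 _) h1
    have h4 : Real.log ρ < 0 := Real.log_neg hρ.1 hρ.2
    have h6 := Real.log_le_log (Real.rpow_pos_of_pos hρ.1 _) h1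
    rw [Real.log_rpow hρ.1] at h6
    have h7 : Real.log (f ρ) / Real.log ρ ≤ (D + b) / 2 := by
      rw [div_le_iff_of_neg h4]
      exact h6
    linarith

end Vale.Agent.P114.LD
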