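import Vale.Agent.P114.Bdl.B4
import Vale.Agent.P114.H408.LocDim

/-!
Self-similar measures on the line are exact dimensional.
-/

open scoped Classical ENNReal NNReal Topology

open MeasureTheory Filter

noncomputable section

namespace Vale.Agent.P114.LD

/-- Most words are typical, with a rate. -/
lemma typW_rate {A : Type*} [Fintype A] (P : FinProb A) (hP : ∀ a, 0 < P.w a)
    (r : A → ℝ) (hr0 : ∀ a, r a ≠ 0) (h X ε : ℝ) (hε : 0 < ε)
    (hh : h = -∑ a, P.w a * Real.log (P.w a)) (hX : X = -∑ a, P.w a * Real.log |r a|) :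
    ∃ V : ℝ, 0 ≤ V ∧ ∀ m : ℕ, 0 < m →
      1 ≤ (∑ w, if w ∈ typW P r (h + ε) (X - ε) m then (P.pi m).w w else 0) + V / m := by
  set a1 := ∑ ω, P.w ω * Real.log (P.w ω) with ha1
  set a2 := ∑ ω, P.w ω * Real.log |r ω| with ha2
  set V1 := ∑ ω, P.w ω * (Real.log (P.w ω) - a1) ^ 2 with hV1
  set V2 := ∑ ω, P.w ω * (Real.log |r ω| - a2) ^ 2 with hV2
  have hV10 : 0 ≤ V1 := Finset.sum_nonneg fun ω _ => mul_nonneg (P.nonneg ω) (sq_nonneg _)
  have hV20 : 0 ≤ V2 := Finset.sum_nonneg fun ω _ => mul_nonneg (P.nonneg ω) (sq_nonneg _)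
  refine ⟨(V1 + V2) / ε ^ 2, by positivity, fun m hm => ?_⟩
  have hmpos : (0 : ℝ) < m := by exact_mod_cast hm
  have hc : 0 < m * ε := by positivity
  have c1 := P.cheb (fun ω => Real.log (P.w ω)) m (m * ε) hc
  have c2 := P.cheb (fun ω => Real.log |r ω|) m (m * ε) hc
  simp only [← ha1, ← hV1] at c1
  simp only [← ha2, ← hV2] at c2
  have e1 : ∀ V : ℝ, m * V / (m * ε) ^ 2 = V / ε ^ 2 / m := by
    intro V
    field_simp
  rw [e1] at c1 c2
  have hsmall : V1 / ε ^ 2 / m + V2 / ε ^ 2 / m = (V1 + V2) / ε ^ 2 / m := by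
    rw [← add_div, ← add_div]
  have hsum : (1 : ℝ) ≤ (∑ w, if w ∈ typW P r (h + ε) (X - ε) m then (P.pi m).w w else 0)
      + ((∑ w, (if m * ε < |∑ i : Fin m, Real.log (P.w (w i))
          - m * a1| then (P.pi m).w w else 0))
      + (∑ w, (if m * ε < |∑ i : Fin m, Real.log |r (w i)|
          - m * a2| then (P.pi m).w w else 0))) := by
    rw [← (P.pi m).sum_one, ← Finset.sum_add_distrib, ← Finset.sum_add_distrib]
    refine Finset.sum_le_sum fun w _ => ?_
    have hw := (P.pi m).nonneg w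
    by_cases h0 : w ∈ typW P r (h + ε) (X - ε) m
    · rw [if_pos h0]
      have : 0 ≤ (if m * ε < |∑ i : Fin m, Real.log (P.w (w i))
          - m * a1| then (P.pi m).w w else 0)
        + (if m * ε < |∑ i : Fin m, Real.log |r (w i)|
          - m * a2| then (P.pi m).w w else 0) := by
        apply add_nonneg <;> split_ifs <;> first | exact hw | exact le_rfl
      linarith only [this]
    · rw [if_neg h0, zero_add]
      by_cases h1 : m * ε < |∑ i : Fin m, Real.log (P.w (w i))
          - m * a1|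
      · rw [if_pos h1]
        have : 0 ≤ (if m * ε < |∑ i : Fin m, Real.log |r (w i)|
          - m * a2| then (P.pi m).w w else 0) := by
          split_ifs <;> first | exact hw | exact le_rfl
        linarith only [this]
      · rw [if_neg h1, zero_add]
        by_cases h2 : m * ε < |∑ i : Fin m, Real.log |r (w i)|
          - m * a2|
        · rw [if_pos h2]
        · exfalso
          apply h0
          push Not at h1 h2
          rw [abs_le] at h1 h2
          refine ⟨?_, ?_⟩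
          · rw [log_pi_w P hP]
            have : m * h = - (m * a1) := by rw [hh]; ring
            rw [mul_add, this]
            linarith only [h1]
          · rw [log_abs_sl r hr0]
            have : m * X = - (m * a2) := by rw [hX]; ring
            rw [mul_sub, this]
            linarith only [h2]
  linarith only [c1, c2, hsmall, hsum]

/-- The covering set at level `m` has almost full measure. -/
lemma measure_covE_compl {A : Type*} [Fintype A] (P : FinProb A) (r t : A → ℝ)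
    (μ : Measure ℝ) [IsProbabilityMeasure μ]
    (hμ : μ = ∑ a, ENNReal.ofReal (P.w a) • μ.map (simMap r t a)) (C a b : ℝ) (m : ℕ)
    (hC : μ (Set.Icc (-C) C) = 1) (V : ℝ) (hV : 0 ≤ V) (hm0 : 0 < m)
    (hm : 1 ≤ (∑ w, if w ∈ typW P r a b m then (P.pi m).w w else 0) + V / m) :
    μ (covE P r t C a b m)ᶜ ≤ ENNReal.ofReal (V / m) := by
  have hmeas := measurableSet_covE P r t C a b m
  have h1 : ENNReal.ofReal (∑ w, if w ∈ typW P r a b m then (P.pi m).w w else 0)
      ≤ μ (covE P r t C a b m) := by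
    rw [selfsim_iter P r t μ hμ m _ hmeas]
    calc ENNReal.ofReal (∑ w, if w ∈ typW P r a b m then (P.pi m).w w else 0)
        = ∑ w, ENNReal.ofReal (if w ∈ typW P r a b m then (P.pi m).w w else 0)
            * μ (Set.Icc (-C) C) := by
          rw [hC]
          simp only [mul_one]
          rw [ENNReal.ofReal_sum_of_nonneg]
          intro w _
          split_ifs
          exacts [(P.pi m).nonneg w, le_rfl]
      _ ≤ _ := by
          refine Finset.sum_le_sum fun w _ => ?_
          split_ifs with hw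
          · refine mul_le_mul_right (measure_mono ?_) _
            refine (preimage_wordIcc r t C w).trans (Set.preimage_mono ?_)
            exact Set.subset_biUnion_of_mem (u := fun w => wordIcc r t C w) hw
          · simp only [ENNReal.ofReal_zero, zero_mul, FinProb.pi_w, zero_le]
  rw [prob_compl_eq_one_sub hmeas]
  rw [tsub_le_iff_right]
  have hnn : 0 ≤ V / (m : ℝ) := by positivity
  have hnn2 : 0 ≤ ∑ w, (if w ∈ typW P r a b m then (P.pi m).w w else 0) := by
    refine Finset.sum_nonneg fun w _ => ?_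
    split_ifs
    exacts [(P.pi m).nonneg w, le_rfl]
  calc (1 : ℝ≥0∞) = ENNReal.ofReal 1 := ENNReal.ofReal_one.symm
    _ ≤ ENNReal.ofReal (V / m + ∑ w, if w ∈ typW P r a b m then (P.pi m).w w else 0) :=
        ENNReal.ofReal_le_ofReal (by linarith)
    _ = ENNReal.ofReal (V / m) +
        ENNReal.ofReal (∑ w, if w ∈ typW P r a b m then (P.pi m).w w else 0) :=
        ENNReal.ofReal_add hnn hnn2
    _ ≤ _ := by gcongr

/-- Mass of balls about the points of the covering set. -/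
lemma mass_of_mem_covE {A : Type*} [Fintype A] (P : FinProb A) (hP : ∀ a, 0 < P.w a)
    (r t : A → ℝ) (hr0 : ∀ a, r a ≠ 0)
    (μ : Measure ℝ) [IsProbabilityMeasure μ]
    (hμ : μ = ∑ a, ENNReal.ofReal (P.w a) • μ.map (simMap r t a)) (C a b : ℝ) (m : ℕ)
    (hC0 : 0 ≤ C) (hC : μ (Set.Icc (-C) C) = 1) (x : ℝ) (hx : x ∈ covE P r t C a b m) :
    Real.exp (-(m * a)) ≤ μ.real (Metric.closedBall x (2 * C * Real.exp (-(m * b)))) := by
  unfold covE at hx
  simp only [Set.mem_iUnion] at hx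
  obtain ⟨w, hw, hxw⟩ := hx
  have hsl : 0 < |sl r w| := by
    rw [sl_eq_prod, Finset.abs_prod]
    exact Finset.prod_pos fun i _ => abs_pos.2 (hr0 _)
  have hslle : |sl r w| ≤ Real.exp (-(m * b)) := by
    rw [← Real.log_le_iff_le_exp hsl]
    exact hw.2
  have hq : 0 < (P.pi m).w w := by
    rw [FinProb.pi_w]
    exact Finset.prod_pos fun i _ => hP _
  have hqle : Real.exp (-(m * a)) ≤ (P.pi m).w w := by
    rw [← Real.le_log_iff_exp_le hq]
    linarith only [hw.1]
  have hsub : wordIcc r t C w ⊆ Metric.closedBall x (2 * C * Real.exp (-(m * b))) := by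
    intro y hy
    rw [Metric.mem_closedBall, Real.dist_eq, abs_le]
    unfold wordIcc at hy hxw
    have h3 : |sl r w| * C ≤ Real.exp (-(m * b)) * C := by gcongr
    constructor <;> nlinarith [hy.1, hy.2, hxw.1, hxw.2]
  have h1 : ENNReal.ofReal ((P.pi m).w w) ≤ μ (wordIcc r t C w) := by
    rw [selfsim_iter P r t μ hμ m (wordIcc r t C w) measurableSet_Icc]
    have h2 := Finset.single_le_sum (f := fun w' : Fin m → A =>
      ENNReal.ofReal ((P.pi m).w w') * μ ((fun x => sl r w' * x + tr r t w') ⁻¹'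
        wordIcc r t C w)) (fun _ _ => zero_le) (Finset.mem_univ w)
    refine le_trans ?_ h2
    have h3 : (1 : ℝ≥0∞) ≤ μ ((fun x => sl r w * x + tr r t w) ⁻¹' wordIcc r t C w) := by
      rw [← hC]
      exact measure_mono (preimage_wordIcc r t C w)
    calc ENNReal.ofReal ((P.pi m).w w) = ENNReal.ofReal ((P.pi m).w w) * 1 := (mul_one _).symm
      _ ≤ _ := by gcongr
  refine hqle.trans ?_
  rw [Measure.real, ← ENNReal.ofReal_le_iff_le_toReal (measure_ne_top _ _)]
  exact h1.trans (measure_mono hsub)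

/-- Upper bound for the local dimension in terms of the one step entropy. -/
theorem lower_mass_ratio {A : Type*} [Fintype A] (P : FinProb A) (hP : ∀ a, 0 < P.w a)
    (r t : A → ℝ) (hr0 : ∀ a, r a ≠ 0) (μ : Measure ℝ) [IsProbabilityMeasure μ]
    (hμ : μ = ∑ a, ENNReal.ofReal (P.w a) • μ.map (simMap r t a))
    (h X s : ℝ) (hh : h = -∑ a, P.w a * Real.log (P.w a))
    (hX : X = -∑ a, P.w a * Real.log |r a|)
    (hs : 0 < s) (hsX : h < s * X) (C : ℝ) (hC0 : 0 < C) (hC : μ (Set.Icc (-C) C) = 1) :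
    ∀ᵐ x ∂μ, ∀ᶠ ρ in 𝓝[>] (0 : ℝ), ρ ^ s ≤ μ.real (Metric.closedBall x ρ) := by
  have hh0 : 0 ≤ h := by
    rw [hh, ← Finset.sum_neg_distrib]
    refine Finset.sum_nonneg fun a _ => ?_
    have := Real.log_nonpos (P.nonneg a) (P.w_le_one a)
    nlinarith [hP a]
  obtain ⟨ε, hε⟩ : ∃ ε : ℝ, ε = (s * X - h) / (2 * (1 + s)) := ⟨_, rfl⟩
  have hε0 : 0 < ε := by rw [hε]; exact div_pos (by linarith only [hsX]) (by positivity)
  have hε1 : ε + s * ε = (s * X - h) / 2 := by
    rw [hε]
    field_simp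
  obtain ⟨a, ha⟩ : ∃ a : ℝ, a = h + ε := ⟨_, rfl⟩
  obtain ⟨b, hb⟩ : ∃ b : ℝ, b = X - ε := ⟨_, rfl⟩
  have ha0 : 0 < a := by rw [ha]; linarith
  have hab : a < s * b := by rw [ha, hb]; nlinarith
  have hb0 : 0 < b := by
    by_contra hcon
    push Not at hcon
    nlinarith
  obtain ⟨V, hV0, hV⟩ := typW_rate P hP r hr0 h X ε hε0 hh hX
  rw [← ha, ← hb] at hV
  have hsq : ∀ k : ℕ, μ (covE P r t C a b ((k + 1) ^ 2))ᶜ
      ≤ ENNReal.ofReal (V / ((k + 1 : ℕ) : ℝ) ^ 2) := by
    intro k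
    have := measure_covE_compl P r t μ hμ C a b ((k + 1) ^ 2) hC V hV0 (by positivity)
      (hV _ (by positivity))
    push_cast at this ⊢
    exact this
  have hsumm : Summable fun k : ℕ => V / ((k + 1 : ℕ) : ℝ) ^ 2 := by
    have h1 : Summable fun k : ℕ => V / (k : ℝ) ^ 2 := by
      simp only [div_eq_mul_inv]
      exact (Real.summable_nat_pow_inv.2 (by norm_num)).mul_left V
    exact (summable_nat_add_iff 1).2 h1
  have hBC := ae_eventually_notMem (μ := μ) (s := fun k : ℕ => (covE P r t C a b ((k + 1) ^ 2))ᶜ)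
    (ne_top_of_le_ne_top hsumm.tsum_ofReal_ne_top (ENNReal.tsum_le_tsum hsq))
  filter_upwards [hBC] with x hx
  refine interp_lower (fun ρ => μ.real (Metric.closedBall x ρ)) (mono_ball μ x)
    (fun k => 2 * C * Real.exp (-((k : ℝ) ^ 2 * b))) (fun k => by positivity) ?_ s hs.le ?_
  · have h2 : Tendsto (fun k : ℕ => Real.exp (-((k : ℝ) ^ 2 * b))) atTop (𝓝 0) := by
      refine Real.tendsto_exp_atBot.comp ?_
      refine tendsto_neg_atTop_atBot.comp ?_
      refine Tendsto.atTop_mul_const hb0 ?_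
      exact (tendsto_pow_atTop (by norm_num)).comp tendsto_natCast_atTop_atTop
    simpa using h2.const_mul (2 * C)
  · obtain ⟨k0, hk0⟩ := exists_nat_gt ((3 * a + |s * Real.log (2 * C)|) / (s * b - a))
    filter_upwards [hx, eventually_ge_atTop (k0 + 1)] with k hk hkk
    have hmem : x ∈ covE P r t C a b ((k + 1) ^ 2) := by
      by_contra hcon
      exact hk hcon
    have h3 := mass_of_mem_covE P hP r t hr0 μ hμ C a b ((k + 1) ^ 2) hC0.le hC x hmem
    push_cast at h3 ⊢
    refine le_trans ?_ h3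
    have hpos : 0 < 2 * C * Real.exp (-((k : ℝ) ^ 2 * b)) := by positivity
    rw [← Real.log_le_iff_le_exp (Real.rpow_pos_of_pos hpos _), Real.log_rpow hpos,
      Real.log_mul (by positivity) (Real.exp_pos _).ne', Real.log_exp]
    have hk1 : (1 : ℝ) ≤ k := by exact_mod_cast (by omega : 1 ≤ k)
    have hk2 : (k0 : ℝ) ≤ k := by exact_mod_cast (by omega : k0 ≤ k)
    rw [div_lt_iff₀ (by linarith)] at hk0
    have h4 : 3 * a + |s * Real.log (2 * C)| ≤ k * (s * b - a) := by nlinarith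
    have h5 := le_abs_self (s * Real.log (2 * C))
    have h6 : (k : ℝ) * (3 * a + |s * Real.log (2 * C)|) ≤ k * (k * (s * b - a)) := by
      gcongr
    have h7 : |s * Real.log (2 * C)| ≤ k * |s * Real.log (2 * C)| := by
      have := abs_nonneg (s * Real.log (2 * C))
      nlinarith
    have h8 : a ≤ k * a := by nlinarith
    nlinarith

/-- The self-similar measure is carried by a bounded interval. -/
lemma exists_supp {Λ : Type} [Fintype Λ] [Nonempty Λ] (r t p : Λ → ℝ) (hr0 : ∀ i, r i ≠ 0)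
    (hr1 : ∀ i, |r i| < 1) (hp : ∀ i, 0 ≤ p i) (hp1 : ∑ i, p i = 1)
    (μ : Measure ℝ) (hμ : IsSelfSimilar r t p μ) :
    ∃ N : ℕ, 0 < N ∧ μ (Set.Icc (-(N : ℝ)) N)ᶜ = 0 := by
  have := hμ.prob
  obtain ⟨S, rfl, rfl⟩ := exists_sys r p hr0 hr1 hp hp1
  have h1 := S.real_support t μ hμ
  obtain ⟨N, hN⟩ := exists_nat_ge (S.D t)
  refine ⟨N + 1, by omega, ?_⟩
  have h2 : μ {x | S.D t < |x|} = 0 := (measureReal_eq_zero_iff).1 h1
  refine measure_mono_null ?_ h2
  intro x hx
  simp only [Set.mem_compl_iff, Set.mem_Icc, not_and, not_le] at hx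
  show S.D t < |x|
  push_cast at hx
  by_contra hcon
  push Not at hcon
  have h3 := abs_le.1 hcon
  have := hx (by linarith)
  linarith

/-- Lower bounds for the mass of small balls, almost everywhere. -/
theorem lower_mass {Λ : Type} [Fintype Λ] [Nonempty Λ] (r t p : Λ → ℝ) (hr0 : ∀ i, r i ≠ 0)
    (hr1 : ∀ i, |r i| < 1) (hp : ∀ i, 0 < p i) (hp1 : ∑ i, p i = 1)
    (μ : Measure ℝ) (hμ : IsSelfSimilar r t p μ) (s : ℝ)
    (hs : min 1 (hRW r t p / lyap r p) < s) :
    ∀ᵐ x ∂μ, ∀ᶠ ρ in 𝓝[>] (0 : ℝ), ρ ^ s ≤ μ.real (Metric.closedBall x ρ) := by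
  have := hμ.prob
  obtain ⟨N, hN0, hN⟩ := exists_supp r t p hr0 hr1 (fun i => (hp i).le) hp1 μ hμ
  rcases min_lt_iff.1 hs with h1 | h1
  · exact lower_mass_one μ s h1 N hN
  · have hL := lyap_pos r p hr0 hr1 (fun i => (hp i).le) hp1
    rw [div_lt_iff₀ hL] at h1
    obtain ⟨n, hn, hn2⟩ : ∃ n : ℕ, n ≠ 0 ∧ stepEntropy r t p n / n < s * lyap r p := by
      by_contra hcon
      push Not at hcon
      exact absurd (le_hRW r t p _ hcon) (not_le.2 h1)
    have hn0 : (0 : ℝ) < n := by exact_mod_cast Nat.pos_of_ne_zero hn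
    have hlog : 0 < Real.log 2 := Real.log_pos (by norm_num)
    set P : FinProb Λ := ⟨p, fun i => (hp i).le, hp1⟩ with hPdef
    have hs0 : 0 < s := by
      have h2 := stepEntropy_nonneg r t p (fun i => (hp i).le) hp1 n
      have h3 : 0 ≤ stepEntropy r t p n / n := by positivity
      by_contra hcon
      push Not at hcon
      nlinarith
    have hC : μ (Set.Icc (-(N : ℝ)) N) = 1 := by
      have := prob_compl_eq_zero_iff (μ := μ) (measurableSet_Icc (a := -(N : ℝ)) (b := N))
      exact this.1 hN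
    refine lower_mass_ratio (blockP P r t n) (blockP_pos P (fun i => hp i) r t n)
      (fun x => x.1.1) (fun x => x.1.2) (block_ne_zero r t hr0 n) μ
      (block_selfsim P r t μ hμ.eq n) _ _ s rfl rfl hs0 ?_ N (by exact_mod_cast hN0) hC
    rw [← dimBlockEntropy, block_lyap P r t hr0 n]
    rw [stepEntropy_eq r t p P (fun _ => rfl) n, lyap_eq r p, div_lt_iff₀ hn0, div_lt_iff₀ hlog]
      at hn2
    have e2 : ∑ i, p i * Real.log |r i| = ∑ i, P.w i * Real.log |r i| := rfl
    rw [e2] at hn2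
    refine hn2.trans_le (le_of_eq ?_)
    field_simp

/-- The dimension formula for all self-similar measures on the line. -/
theorem formula {Λ : Type} [Fintype Λ] [Nonempty Λ]
    (r t p : Λ → ℝ) (hr0 : ∀ i, r i ≠ 0) (hr1 : ∀ i, |r i| < 1)
    (hp : ∀ i, 0 < p i) (hp1 : ∑ i, p i = 1)
    (μ : Measure ℝ) (hμ : IsSelfSimilar r t p μ) :
    lowerDimH μ = ENNReal.ofReal (min 1 (hRW r t p / lyap r p)) := by
  by_cases h : ∃ i j, Irrational (Real.log |r i| / Real.log |r j|)
  · obtain ⟨i, j, h⟩ := h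
    exact main_irr r t p hr0 hr1 hp hp1 i j h μ hμ
  · push Not at h
    exact Com.main_rational r t p hr0 hr1 h hp hp1 μ hμ

/-- Exact dimensionality of self-similar measures on the line, with the value. -/
theorem exact_dim {Λ : Type} [Fintype Λ] [Nonempty Λ]
    (r t p : Λ → ℝ) (hr0 : ∀ i, r i ≠ 0) (hr1 : ∀ i, |r i| < 1)
    (hp : ∀ i, 0 < p i) (hp1 : ∑ i, p i = 1)
    (μ : Measure ℝ) (hμ : IsSelfSimilar r t p μ) :
    ∀ᵐ x ∂μ, Tendsto (fun ρ => Real.log (μ.real (Metric.closedBall x ρ)) / Real.log ρ)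
      (𝓝[>] 0) (𝓝 (min 1 (hRW r t p / lyap r p))) := by
  have := hμ.prob
  set D := min 1 (hRW r t p / lyap r p) with hD
  have hform : lowerDimH μ = ENNReal.ofReal D := formula r t p hr0 hr1 hp hp1 μ hμ
  have h1 : ∀ᵐ x ∂μ, ∀ j : ℕ, ∀ᶠ ρ in 𝓝[>] (0 : ℝ),
      ρ ^ (D + 1 / ((j : ℝ) + 1)) ≤ μ.real (Metric.closedBall x ρ) := by
    rw [ae_all_iff]
    intro j
    refine lower_mass r t p hr0 hr1 hp hp1 μ hμ _ ?_
    have : (0 : ℝ) < 1 / ((j : ℝ) + 1) := by positivity
    linarith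
  have h2 : ∀ᵐ x ∂μ, ∀ j : ℕ, 0 ≤ D - 1 / ((j : ℝ) + 1) → ∀ᶠ ρ in 𝓝[>] (0 : ℝ),
      μ.real (Metric.closedBall x ρ) ≤ ρ ^ (D - 1 / ((j : ℝ) + 1)) := by
    rw [ae_all_iff]
    intro j
    by_cases h0 : 0 ≤ D - 1 / ((j : ℝ) + 1)
    · have h3 : (0 : ℝ) < 1 / ((j : ℝ) + 1) := by positivity
      have h4 := upper_mass μ (D - 1 / ((j : ℝ) + 1)) (by
        rw [hform, ENNReal.ofReal_lt_ofReal_iff_of_nonneg h0]
        linarith) h0
      filter_upwards [h4] with x hx _ using hx
    · exact Eventually.of_forall fun x h => absurd h h0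
  filter_upwards [h1, h2] with x hx1 hx2
  refine tendsto_of_mass (fun ρ => μ.real (Metric.closedBall x ρ)) (fun _ => measureReal_le_one)
    D ?_ ?_
  · intro s hs
    obtain ⟨j, hj⟩ := exists_nat_one_div_lt (sub_pos.2 hs)
    filter_upwards [hx1 j, Ioo_mem_nhdsGT (show (0 : ℝ) < 1 by norm_num)] with ρ hρ hρ1
    refine le_trans ?_ hρ
    exact Real.rpow_le_rpow_of_exponent_ge hρ1.1 hρ1.2.le (by linarith)
  · intro d hd0 hd
    obtain ⟨j, hj⟩ := exists_nat_one_div_lt (sub_pos.2 hd)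
    filter_upwards [hx2 j (by linarith), Ioo_mem_nhdsGT (show (0 : ℝ) < 1 by norm_num)]
      with ρ hρ hρ1
    refine hρ.trans ?_
    exact Real.rpow_le_rpow_of_exponent_ge hρ1.1 hρ1.2.le (by linarith)

end Vale.Agent.P114.LD
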